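import Vale.Agent.P168.Top
import Vale.Agent.P168.Truncation
import Vale.Agent.P168.Upper
import Vale.Agent.P168.States.Continuity
import Vale.Agent.P168.States.MPState
import Vale.Agent.P168.Tree
import Vale.Agent.P168.AssemblyMP
import Vale.Agent.P168.Core.Main
import Vale.Agent.P168.Cascade.Log
import Vale.Agent.P168.Cascade.MomentLimit
import Vale.Agent.P168.Limit.Main
import Vale.Agent.P168.Structure.Induction
import Vale.Agent.P168.Structure.Step
import Vale.Agent.P168.Structure.SecondMoment

/-! The Mézard–Parisi formula for diluted spin glasses. -/

open MeasureTheory Filter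
open scoped Topology

namespace Vale.Agent.Results.P168.MezardParisi

open Vale.Agent.P168

/-- The pressure converges to the infimum of the trial functional over all finite depths. -/
theorem result (K : ℕ) (lam : ℝ) (P : Measure (Factor K)) (Q : Measure ℝ) (hK : Even K)
    (h2 : 2 ≤ K) (hlam : 0 < lam) (hM : IsModel P Q) :
    ∃ L : ℝ, Tendsto (fun N => pressure lam P Q (N + 1)) atTop (𝓝 L) ∧
      IsGLB (trialValues lam P Q) L :=
  main_of Trunc.truncationStmt (upper_stmt Cascade.cascadeLog) States.cav_continuity
    (States.mp_state Cascade.cascadeLog Cascade.cascadeMoment) Limit.limit_stmt Tree.tree_stmt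
    Core.coreStmt (Structure.structure_of_step (Structure.step_of_second_moment
      Structure.second_moment)) assemblyMP_stmt K lam P Q hK h2 hlam hM

end Vale.Agent.Results.P168.MezardParisi
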